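import Vale.Agent.P167.H871.Q.Bump
import Vale.Agent.P167.QX.ExtRect

/-!
# P167, general `q`: the outside of a set of squares with one boundary path is connected
-/

namespace Vale.Agent.P167.H662.X

open Finset
open Vale.Agent.P167.Top
open Vale.Agent.P167.FK
open Vale.Agent.P167.BR
open Vale.Agent.P167.H871 (Bd sqL)
open Vale.Agent.P167.H871.Q (Cov)
open Vale.Agent.P167.QX (ExtConn const_le const_ge)

variable {S : Finset (ℤ × ℤ)} {n : ℕ} {P : ℕ → ℤ × ℤ} {u : ℕ → ℤ} {g : ℤ × ℤ → ℤ}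

theorem ext_hor (hg : ∀ x, (hdv x ∉ S ∨ tlv x ∉ S) → g (ls x) = g (rs x)) (x y : ℤ)
    (h : (x, y - 1) ∉ S ∨ (x, y) ∉ S) : g (x, y) = g (x + 1, y) := by
  have h1 := hg (Sum.inr (x, y - 1))
  simp only [hdv, tlv, ls, rs] at h1
  split_ifs at h1
  · simp only [sub_add_cancel] at h1
    exact (h1 h).symm
  · simp only [sub_add_cancel] at h1
    exact h1 h.symm

theorem ext_ver (hg : ∀ x, (hdv x ∉ S ∨ tlv x ∉ S) → g (ls x) = g (rs x)) (x y : ℤ)
    (h : (x - 1, y) ∉ S ∨ (x, y) ∉ S) : g (x, y) = g (x, y + 1) := by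
  have h1 := hg (Sum.inl (x - 1, y))
  simp only [hdv, tlv, ls, rs] at h1
  split_ifs at h1
  · simp only [sub_add_cancel] at h1
    exact (h1 h.symm).symm
  · simp only [sub_add_cancel] at h1
    exact h1 h

theorem ext_sqL (v : ℤ × ℤ) : sqL v 0 = (v.1, v.2) ∧ sqL v 1 = (v.1 - 1, v.2) ∧
    sqL v 2 = (v.1 - 1, v.2 - 1) ∧ sqL v 3 = (v.1, v.2 - 1) ∧ sqL v (-1) = (v.1, v.2 - 1) := by
  refine ⟨?_, ?_, ?_, ?_, ?_⟩ <;> simp [sqL, sub_eq_add_neg]

/-- Steps next to a square outside. -/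
theorem ext_vec (hg : ∀ x, (hdv x ∉ S ∨ tlv x ∉ S) → g (ls x) = g (rs x)) (v : ℤ × ℤ) (t : ℤ)
    (h : sqL v (t - 1) ∉ S) : g v = g (v + vec t) := by
  obtain ⟨a, b⟩ := v
  obtain ⟨s0, s1, s2, s3, -⟩ := ext_sqL (a, b)
  have ht : t % 4 = 0 ∨ t % 4 = 1 ∨ t % 4 = 2 ∨ t % 4 = 3 := by omega
  rcases ht with ht | ht | ht | ht
  · rw [H871.sqL_congr (d' := 3) (by omega), s3] at h
    rw [vec_congr (d' := 0) (by omega)]
    have e : ((a, b) : ℤ × ℤ) + vec 0 = (a + 1, b) := by simp [vec, dx, dy]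
    rw [e]
    exact ext_hor hg a b (Or.inl h)
  · rw [H871.sqL_congr (d' := 0) (by omega), s0] at h
    rw [vec_congr (d' := 1) (by omega)]
    have e : ((a, b) : ℤ × ℤ) + vec 1 = (a, b + 1) := by simp [vec, dx, dy]
    rw [e]
    exact ext_ver hg a b (Or.inr h)
  · rw [H871.sqL_congr (d' := 1) (by omega), s1] at h
    rw [vec_congr (d' := 2) (by omega)]
    have e : ((a, b) : ℤ × ℤ) + vec 2 = (a - 1, b) := by simp [vec, dx, dy, sub_eq_add_neg]
    rw [e]
    have := ext_hor hg (a - 1) b (Or.inr h)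
    rw [sub_add_cancel] at this
    exact this.symm
  · rw [H871.sqL_congr (d' := 2) (by omega), s2] at h
    rw [vec_congr (d' := 3) (by omega)]
    have e : ((a, b) : ℤ × ℤ) + vec 3 = (a, b - 1) := by simp [vec, dx, dy, sub_eq_add_neg]
    rw [e]
    have := ext_ver hg a (b - 1) (Or.inl h)
    rw [sub_add_cancel] at this
    exact this.symm

/-- A site with squares inside and squares outside is on the path. -/
theorem ext_path (hc : Cov (S : Set (ℤ × ℤ)) P u) {v : ℤ × ℤ} {s t : ℤ} (hs : sqL v s ∈ S)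
    (ht : sqL v t ∉ S) : ∃ k, P k = v := by
  by_contra hno
  have key : ∀ t, sqL v t ∈ S → sqL v (t - 1) ∈ S := by
    intro t h
    by_contra h'
    obtain ⟨k, hk, -⟩ := hc v t (Finset.mem_coe.2 h) (fun h2 => h' (Finset.mem_coe.1 h2))
    exact hno ⟨k, hk⟩
  have all : ∀ j : ℕ, sqL v (s - j) ∈ S := by
    intro j
    induction j with
    | zero => simpa using hs
    | succ j ih =>
      have := key _ ih
      have e : s - ((j + 1 : ℕ) : ℤ) = s - (j : ℤ) - 1 := by push_cast; ring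
      rw [e]
      exact this
  apply ht
  have h1 := all ((s - t) % 4).toNat
  rw [Int.toNat_of_nonneg (Int.emod_nonneg _ (by norm_num))] at h1
  rwa [H871.sqL_congr (d' := t) (by omega)] at h1

/-- **The outside of a set of squares with one boundary path is connected.** -/
theorem extConn_bd (hb : Bd (S : Set (ℤ × ℤ)) n P u 1) (hc : Cov (S : Set (ℤ × ℤ)) P u)
    (_hn : 0 < n) : ExtConn S := by
  intro g hg
  -- `g` is constant along the path
  have hP : ∀ k, g (P k) = g (P 0) := by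
    intro k
    induction k with
    | zero => rfl
    | succ k ih =>
      rw [← ih, hb.step k]
      exact (ext_vec hg _ _ fun h => hb.right k (Finset.mem_coe.2 h)).symm
  -- the rightmost column
  have hne : S.Nonempty := ⟨_, Finset.mem_coe.1 (hb.left 0)⟩
  obtain ⟨m, hm, hmax⟩ := S.exists_max_image (fun v => v.1) hne
  have hout : ∀ x y : ℤ, m.1 < x → (x, y) ∉ S := fun x y hx h => by
    have := hmax _ h
    simp only at this
    omega
  -- the half plane
  have hH : ∀ x y : ℤ, m.1 + 1 ≤ x → g (x, y) = g (m.1 + 1, m.2) := by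
    intro x y hx
    have h1 := const_ge (f := fun x => g (x, y)) (m := m.1 + 1)
      (fun x hx => ext_hor hg x y (Or.inr (hout x y (by omega)))) x hx
    have hv : ∀ y, g (m.1 + 1, y) = g (m.1 + 1, y + 1) :=
      fun y => ext_ver hg _ y (Or.inr (hout _ y (by omega)))
    rw [h1]
    rcases le_total y m.2 with h | h
    · exact const_le (f := fun y => g (m.1 + 1, y)) (fun y _ => hv y) y h
    · exact const_ge (f := fun y => g (m.1 + 1, y)) (fun y _ => hv y) y h
  have hm0 : g (m.1 + 1, m.2) = g (P 0) := by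
    obtain ⟨s0, s1, s2, s3, -⟩ := ext_sqL (m.1 + 1, m.2)
    obtain ⟨k, hk⟩ := ext_path (v := (m.1 + 1, m.2)) (s := 1) (t := 0) hc
      (by rw [s1]; simpa using hm) (by rw [s0]; exact hout _ _ (by simp))
    rw [← hk, hP]
  have hH' : ∀ x y : ℤ, m.1 + 1 ≤ x → g (x, y) = g (P 0) := fun x y hx => by
    rw [hH x y hx, hm0]
  -- all sites with a square outside
  have key : ∀ j : ℕ, ∀ v : ℤ × ℤ, m.1 + 1 - v.1 ≤ j → (∃ t, sqL v t ∉ S) → g v = g (P 0) := by
    intro j
    induction j with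
    | zero =>
      rintro ⟨x, y⟩ h -
      exact hH' x y (by simp only at h; push_cast at h; omega)
    | succ j ih =>
      rintro v h ⟨t, ht⟩
      by_cases hs : ∃ s, sqL v s ∈ S
      · obtain ⟨s, hs⟩ := hs
        obtain ⟨k, hk⟩ := ext_path hc hs ht
        rw [← hk, hP]
      · push Not at hs
        rw [ext_vec hg v 0 (hs _)]
        refine ih _ ?_ ⟨1, ?_⟩
        · have e : (v + vec 0).1 = v.1 + 1 := by simp [vec, dx]
          rw [e]
          push_cast at h
          omega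
        · have h0 := hs 0
          obtain ⟨s0, -⟩ := ext_sqL v
          obtain ⟨-, s1, -⟩ := ext_sqL (v + vec 0)
          rw [s0] at h0
          rw [s1]
          have e : (v + vec 0) = (v.1 + 1, v.2) := by
            ext <;> simp [vec, dx, dy]
          rw [e]
          simpa using h0
  have fin : ∀ v : ℤ × ℤ, (∃ t, sqL v t ∉ S) → g v = g (P 0) := fun v h =>
    key (m.1 + 1 - v.1).toNat v (Int.self_le_toNat _) h
  refine ⟨g (P 0), fun x hx => ?_⟩
  have hw : ∃ w, w ∉ S ∧ (w = hdv x ∨ w = tlv x) := by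
    rcases hx with h | h
    · exact ⟨_, h, Or.inl rfl⟩
    · exact ⟨_, h, Or.inr rfl⟩
  obtain ⟨w, hw, hw'⟩ := hw
  have near : ∀ v : ℤ × ℤ, (w = (v.1, v.2) ∨ w = (v.1 - 1, v.2) ∨ w = (v.1 - 1, v.2 - 1) ∨
      w = (v.1, v.2 - 1)) → g v = g (P 0) := by
    intro v hv
    obtain ⟨s0, s1, s2, s3, -⟩ := ext_sqL v
    apply fin
    rcases hv with h | h | h | h
    · exact ⟨0, by rw [s0, ← h]; exact hw⟩
    · exact ⟨1, by rw [s1, ← h]; exact hw⟩
    · exact ⟨2, by rw [s2, ← h]; exact hw⟩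
    · exact ⟨3, by rw [s3, ← h]; exact hw⟩
  obtain ⟨w1, w2⟩ := w
  rcases x with ⟨x, y⟩ | ⟨x, y⟩ <;> simp only [hdv, tlv] at hw' <;>
    constructor <;> apply near <;> simp only [ls, rs] <;> split_ifs at hw' ⊢ <;>
    simp only [Prod.mk.injEq] at hw' ⊢ <;> omega

end Vale.Agent.P167.H662.X
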